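import Vale.Agent.P246W26.Main
import Vale.Agent.P246.Dis.H52.Fin
import Vale.Agent.P246.Dis.H52.Core
import Vale.Agent.P246.Dis.H52.Grp

/-!
P246: Wall's D(2) problem has a negative answer, with the D(2) condition stated through the
cellular chains of the universal cover.
-/

open Topology Set

namespace Vale.Agent.Results.P246.AWallCellular

open Vale.Agent.P246.T Vale.Agent.P246.Dis.H52 Vale.Agent.P246W26

/-- **The D(2) property fails.** -/
theorem result :
    (∀ (X : Type) [TopologicalSpace X] [T2Space X] [CWComplex (univ : Set X)]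
      [CWComplex.Finite (univ : Set X)] [ConnectedSpace X], D2Cell X ↔ D2Condition X) ∧
    (∃ (X : Type) (_ : TopologicalSpace X) (_ : T2Space X) (_ : CWComplex (univ : Set X)),
      CWComplex.Finite (univ : Set X) ∧ ConnectedSpace X ∧
      (∀ m > 3, IsEmpty (RelCWComplex.cell (univ : Set X) m)) ∧
      (∀ x : X, Nonempty (FundamentalGroup X x ≃* WallGroup)) ∧ D2Cell X ∧
      ¬ HasFiniteTwoModel X) ∧
    ¬ D2CellProperty WallGroup := by
  obtain ⟨φ⟩ := exists_equiv
  obtain ⟨X, i1, i2, i3, hf, hcon, hdim, hpi, hD2, h⟩ := not_top core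
  have hpi' : ∀ x : X, Nonempty (FundamentalGroup X x ≃* WallGroup) := fun x =>
    (hpi x).map fun e => e.trans φ
  have := hf
  have := hcon
  have hc := (d2_iff X).2 hD2
  refine ⟨d2_iff, ⟨X, i1, i2, i3, hf, hcon, hdim, hpi', hc, h⟩, fun hG => ?_⟩
  obtain ⟨x⟩ : Nonempty X := inferInstance
  exact h (hG X x (hpi' x) hc)

end Vale.Agent.Results.P246.AWallCellular
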